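import Vale.Agent.P273.H724.Field
import Vale.Agent.P273.H395.Norm
import Vale.Agent.P273.H837.Proj
import Vale.Agent.P273.H599.Inj

/-!
Positions on the normalisation: a holomorphic section of a family (over an analytic map into its
base) that avoids the nodes is, locally, an analytic position on one of the lines of the
normalisation.
-/

noncomputable section

namespace Vale.Agent.P273.H303

open Set Sum Filter H183 H837 H395
open scoped Topology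

/-- The two affine coordinates of the projective line. -/
def io (s : Bool) (a : ℂ) : OnePoint ℂ := if s then inf a else (a : OnePoint ℂ)

theorem io_emb (s : Bool) : Topology.IsOpenEmbedding (io s) := by
  cases s
  · exact OnePoint.isOpenEmbedding_coe
  · exact isOpenEmbedding_inf

theorem io_inj (s : Bool) : Function.Injective (io s) := (io_emb s).injective

theorem io_cont (s : Bool) : Continuous (io s) := (io_emb s).continuous

theorem exists_io (w : OnePoint ℂ) : ∃ s a, io s a = w ∧ (s = true → a = 0) := by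
  induction w using OnePoint.rec with
  | infty => exact ⟨true, 0, inf_zero, fun _ => rfl⟩
  | coe a => exact ⟨false, a, rfl, fun h => absurd h (by decide)⟩

/-- Holomorphic functions in the affine coordinates. -/
theorem hol1_io {m : ℕ} {f : OnePoint ℂ → (Fin m → ℂ) → ℂ} {s : Bool} {a : ℂ} {b : Fin m → ℂ}
    (ha : s = true → a = 0) (h : Hol1 f (io s a) b) :
    AnalyticAt ℂ (fun q : ℂ × (Fin m → ℂ) => f (io s q.1) q.2) (a, b) := by
  cases s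
  · exact h.1 a rfl
  · obtain rfl := ha rfl
    exact h.2 inf_zero

/-- **Implicit functions.** -/
theorem exists_implicit {n : ℕ} {f : ℂ × (Fin n → ℂ) → ℂ} {a₀ : ℂ} {b₀ : Fin n → ℂ}
    (hf : AnalyticAt ℂ f (a₀, b₀)) (hd : deriv (fun a => f (a, b₀)) a₀ ≠ 0)
    {c : (Fin n → ℂ) → ℂ} (hc : AnalyticAt ℂ c b₀) (h0 : f (a₀, b₀) = c b₀) :
    ∃ k : (Fin n → ℂ) → ℂ, AnalyticAt ℂ k b₀ ∧ k b₀ = a₀ ∧ ∀ᶠ b in 𝓝 b₀, f (k b, b) = c b := by
  set Ψ : ℂ × (Fin n → ℂ) → ℂ × (Fin n → ℂ) := fun q => (f q, q.2) with hΨd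
  have hΨ : AnalyticAt ℂ Ψ (a₀, b₀) := hf.prod analyticAt_snd
  set T : ℂ × (Fin n → ℂ) →L[ℂ] ℂ × (Fin n → ℂ) :=
    (fderiv ℂ f (a₀, b₀)).prod (ContinuousLinearMap.snd ℂ ℂ (Fin n → ℂ)) with hT
  have hTd : HasFDerivAt Ψ T (a₀, b₀) :=
    hf.differentiableAt.hasFDerivAt.prodMk hasFDerivAt_snd
  have hde : deriv (fun a => f (a, b₀)) a₀ = fderiv ℂ f (a₀, b₀) (1, 0) := by
    have h1 : HasFDerivAt (fun a : ℂ => (a, b₀)) (ContinuousLinearMap.inl ℂ ℂ (Fin n → ℂ)) a₀ :=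
      hasFDerivAt_prodMk_left a₀ b₀
    have h2 : HasFDerivAt (fun a : ℂ => f (a, b₀))
        ((fderiv ℂ f (a₀, b₀)).comp (ContinuousLinearMap.inl ℂ ℂ (Fin n → ℂ))) a₀ :=
      HasFDerivAt.comp (g := f) a₀ hf.differentiableAt.hasFDerivAt h1
    have h3 := h2.hasDerivAt.deriv
    rw [h3]
    simp
  have hinj : Function.Injective (T : ℂ × (Fin n → ℂ) →ₗ[ℂ] ℂ × (Fin n → ℂ)) := by
    rw [← LinearMap.ker_eq_bot, LinearMap.ker_eq_bot']
    rintro ⟨x, y⟩ hxy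
    have h1 : (fderiv ℂ f (a₀, b₀) (x, y), y) = (0 : ℂ × (Fin n → ℂ)) := hxy
    have hy : y = 0 := congrArg Prod.snd h1
    have hx : fderiv ℂ f (a₀, b₀) (x, y) = 0 := congrArg Prod.fst h1
    subst hy
    have h2 : ((x, (0 : Fin n → ℂ)) : ℂ × (Fin n → ℂ)) = x • ((1 : ℂ), (0 : Fin n → ℂ)) := by
      ext <;> simp
    rw [h2, map_smul, ← hde, smul_eq_mul] at hx
    rw [(mul_eq_zero.1 hx).resolve_right hd]
    rfl
  set D : (ℂ × (Fin n → ℂ)) ≃L[ℂ] (ℂ × (Fin n → ℂ)) :=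
    (LinearEquiv.ofInjectiveEndo (T : ℂ × (Fin n → ℂ) →ₗ[ℂ] ℂ × (Fin n → ℂ))
      hinj).toContinuousLinearEquiv with hDd
  have hD : HasFDerivAt Ψ (D : ℂ × (Fin n → ℂ) →L[ℂ] ℂ × (Fin n → ℂ)) (a₀, b₀) := by
    have e : (D : ℂ × (Fin n → ℂ) →L[ℂ] ℂ × (Fin n → ℂ)) = T := by
      refine ContinuousLinearMap.ext fun x => ?_
      rfl
    rw [e]
    exact hTd
  obtain ⟨R, hR, hs, -, -, hsy⟩ := exists_inv hΨ D hD (univ_mem)
  have hm : R (a₀, b₀) = (c b₀, b₀) := by rw [hR _ hs, ← h0]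
  have hmt : (c b₀, b₀) ∈ R.target := by rw [← hm]; exact R.map_source hs
  have hcb : AnalyticAt ℂ (fun b => (c b, b)) b₀ := hc.prod analyticAt_id
  refine ⟨fun b => (R.symm (c b, b)).1, ?_, ?_, ?_⟩
  · have h1 : AnalyticAt ℂ (fun b => R.symm (c b, b)) b₀ :=
      AnalyticAt.comp (g := R.symm) (f := fun b => (c b, b)) (x := b₀) (hsy _ hmt) hcb
    exact analyticAt_fst.comp h1
  · change (R.symm (c b₀, b₀)).1 = a₀
    rw [← hm, R.left_inv hs]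
  · have hev : ∀ᶠ b in 𝓝 b₀, (c b, b) ∈ R.target :=
      hcb.continuousAt.eventually (R.open_target.mem_nhds hmt)
    filter_upwards [hev] with b hb
    have h1 : Ψ (R.symm (c b, b)) = (c b, b) := by
      rw [← hR _ (R.map_target hb), R.right_inv hb]
    have h2 : (R.symm (c b, b)).2 = b := congrArg Prod.snd h1
    have h3 : f (R.symm (c b, b)) = c b := congrArg Prod.fst h1
    have h4 : ((R.symm (c b, b)).1, b) = R.symm (c b, b) := Prod.ext rfl h2.symm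
    rw [h4]
    exact h3

variable {L V E : Type} {m m' : ℕ}

/-- A chart with exchanged coordinates. -/
theorem isChart_swap {X : Type} [TopologicalSpace X] {π : X → Fin m → ℂ}
    {hol : (X → ℂ) → X → Prop} {U : Set X} {x y : X → ℂ} {t : (Fin m → ℂ) → ℂ}
    (h : IsChart π hol U x y t) : IsChart π hol U y x t := by
  obtain ⟨h1, h2, h3, h4, h5⟩ := h
  have hsw : Continuous (fun w : (Fin m → ℂ) × ℂ × ℂ => (w.1, w.2.2, w.2.1)) := by fun_prop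
  have him : ∀ (S : Set X) (α β : X → ℂ), (fun p => (π p, β p, α p)) '' S =
      (fun w : (Fin m → ℂ) × ℂ × ℂ => (w.1, w.2.2, w.2.1)) ⁻¹'
        ((fun p => (π p, α p, β p)) '' S) := by
    intro S α β
    ext ⟨w1, w2, w3⟩
    constructor
    · rintro ⟨p, hp, e⟩
      simp only [Prod.mk.injEq] at e
      exact ⟨p, hp, by simp [e.1, e.2.1, e.2.2]⟩
    · rintro ⟨p, hp, e⟩
      simp only [Prod.mk.injEq] at e
      exact ⟨p, hp, by simp [e.1, e.2.1, e.2.2]⟩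
  refine ⟨h1, h2, ?_, fun S hS => ?_, fun p hp f => ?_⟩
  · intro p hp q hq e
    simp only [Prod.mk.injEq] at e
    exact h3 hp hq (by simp only [Prod.mk.injEq]; exact ⟨e.1, e.2.2, e.2.1⟩)
  · rw [h4 S hS]
    constructor
    · rintro ⟨W, hW, e⟩
      refine ⟨_, hW.preimage hsw, ?_⟩
      rw [him S x y, e]
      ext w
      change ((w.1, w.2.2, w.2.1) ∈ W ∧ w.2.2 * w.2.1 = t w.1) ↔
        ((w.1, w.2.2, w.2.1) ∈ W ∧ w.2.1 * w.2.2 = t w.1)
      rw [mul_comm]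
    · rintro ⟨W, hW, e⟩
      refine ⟨_, hW.preimage hsw, ?_⟩
      rw [him S y x, e]
      ext w
      change ((w.1, w.2.2, w.2.1) ∈ W ∧ w.2.2 * w.2.1 = t w.1) ↔
        ((w.1, w.2.2, w.2.1) ∈ W ∧ w.2.1 * w.2.2 = t w.1)
      rw [mul_comm]
  · rw [h5 p hp f]
    have hsa : ∀ w₀ : (Fin m → ℂ) × ℂ × ℂ,
        AnalyticAt ℂ (fun w : (Fin m → ℂ) × ℂ × ℂ => (w.1, w.2.2, w.2.1)) w₀ := fun w₀ =>
      analyticAt_fst.prod ((analyticAt_snd.comp analyticAt_snd).prod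
        (analyticAt_fst.comp analyticAt_snd))
    constructor
    · rintro ⟨G, hG, he⟩
      exact ⟨fun w => G (w.1, w.2.2, w.2.1),
        AnalyticAt.comp (g := G) (f := fun w : (Fin m → ℂ) × ℂ × ℂ => (w.1, w.2.2, w.2.1))
          (x := (π p, y p, x p)) hG (hsa _), he⟩
    · rintro ⟨G, hG, he⟩
      exact ⟨fun w => G (w.1, w.2.2, w.2.1),
        AnalyticAt.comp (g := G) (f := fun w : (Fin m → ℂ) × ℂ × ℂ => (w.1, w.2.2, w.2.1))
          (x := (π p, x p, y p)) hG (hsa _), he⟩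

/-- In a chart, two points of the same fibre with the same nonzero first coordinate are equal. -/
theorem chart_inj_fst {C : Fam L m} {N : Set C.X} {u v : C.X → ℂ} {t : (Fin m → ℂ) → ℂ}
    (hch : IsChart C.π C.hol N u v t) {p q : C.X} (hp : p ∈ N) (hq : q ∈ N)
    (hπ : C.π p = C.π q) (hu : u p = u q) (h0 : u q ≠ 0) : p = q := by
  have h1 := H724.chart_eq hch hp
  have h2 := H724.chart_eq hch hq
  have h3 : v p = v q := by
    rw [hπ, ← h2, hu] at h1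
    exact mul_left_cancel₀ h0 h1
  exact hch.2.2.1 hp hq (by simp only [Prod.mk.injEq]; exact ⟨hπ, hu, h3⟩)

/-- The point with coordinate `a`, continuity. -/
theorem continuousAt_g {C : Fam L m} {U : Set (Fin m' → ℂ)} (hU : IsOpen U)
    {φ : (Fin m' → ℂ) → Fin m → ℂ} {h : (E × Bool) ⊕ L → V}
    {z : (E × Bool) ⊕ L → (Fin m' → ℂ) → OnePoint ℂ}
    {g : V → OnePoint ℂ → (Fin m' → ℂ) → C.X} (hN : Norm C U φ h z g) {b₀ : Fin m' → ℂ}
    (hb₀ : b₀ ∈ U) (v₀ : V) (s : Bool) (a₀ : ℂ) :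
    ContinuousAt (fun q : ℂ × (Fin m' → ℂ) => g v₀ (io s q.1) q.2) (a₀, b₀) := by
  have h1 : ContinuousAt (fun u : OnePoint ℂ × (Fin m' → ℂ) => g v₀ u.1 u.2) (io s a₀, b₀) :=
    (hN.cont v₀).continuousAt (prod_mem_nhds univ_mem (hU.mem_nhds hb₀))
  have h2 : ContinuousAt (fun q : ℂ × (Fin m' → ℂ) => (io s q.1, q.2)) (a₀, b₀) :=
    (((io_cont s).comp continuous_fst).prodMk continuous_snd).continuousAt
  exact ContinuousAt.comp (g := fun u : OnePoint ℂ × (Fin m' → ℂ) => g v₀ u.1 u.2)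
    (f := fun q : ℂ × (Fin m' → ℂ) => (io s q.1, q.2)) h1 h2

/-- The node positions are discrete. -/
theorem eventually_not_node [Finite E] (z : (E × Bool) ⊕ L → (Fin m' → ℂ) → OnePoint ℂ)
    (b₀ : Fin m' → ℂ) (s : Bool) (a₀ : ℂ) :
    ∀ᶠ a in 𝓝 a₀, a ≠ a₀ → ∀ y : E × Bool, io s a ≠ z (inl y) b₀ := by
  set S : Set ℂ := {a | ∃ y : E × Bool, io s a = z (inl y) b₀} with hS
  have hSf : S.Finite := by
    have h1 : S ⊆ (io s) ⁻¹' (range fun y : E × Bool => z (inl y) b₀) := by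
      rintro a ⟨y, hh⟩
      exact ⟨y, hh.symm⟩
    exact ((finite_range _).preimage (io_inj s).injOn).subset h1
  have hSev : ∀ᶠ a in 𝓝 a₀, a ∉ S \ {a₀} :=
    (hSf.subset sdiff_subset).isClosed.isOpen_compl.mem_nhds fun hh => hh.2 rfl
  filter_upwards [hSev] with a ha hne y hy
  exact ha ⟨⟨y, hy⟩, hne⟩

/-- A chart coordinate that does not vanish is a local coordinate of the normalisation. -/
theorem deriv_ne [Finite E] {C : Fam L m} {U : Set (Fin m' → ℂ)}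
    {φ : (Fin m' → ℂ) → Fin m → ℂ} {h : (E × Bool) ⊕ L → V}
    {z : (E × Bool) ⊕ L → (Fin m' → ℂ) → OnePoint ℂ}
    {g : V → OnePoint ℂ → (Fin m' → ℂ) → C.X} (hN : Norm C U φ h z g)
    {N : Set C.X} {u v : C.X → ℂ} {t : (Fin m → ℂ) → ℂ} (hch : IsChart C.π C.hol N u v t)
    {b₀ : Fin m' → ℂ} (hb₀ : b₀ ∈ U) {v₀ : V} {s : Bool} {a₀ : ℂ} (hs0 : s = true → a₀ = 0)
    (hp : g v₀ (io s a₀) b₀ ∈ N) (hne : u (g v₀ (io s a₀) b₀) ≠ 0) :
    AnalyticAt ℂ (fun a => u (g v₀ (io s a) b₀)) a₀ ∧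
      deriv (fun a => u (g v₀ (io s a) b₀)) a₀ ≠ 0 := by
  have hA := H724.isAmb_of_isChart hch
  have hc : ContinuousAt (fun a => g v₀ (io s a) b₀) a₀ :=
    (((hN.cont v₀).comp_continuous (continuous_id.prodMk continuous_const)
      fun w => ⟨mem_univ _, hb₀⟩ : Continuous fun w => g v₀ w b₀).comp (io_cont s)).continuousAt
  have han : AnalyticAt ℂ (fun a => u (g v₀ (io s a) b₀)) a₀ := by
    have h1 := hol1_io hs0 (hN.hol b₀ hb₀ v₀ (io s a₀) u (H724.amb_hol_fst hA hp))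
    have h2 : AnalyticAt ℂ (fun a : ℂ => (a, b₀)) a₀ := analyticAt_id.prod analyticAt_const
    exact AnalyticAt.comp (g := fun q : ℂ × (Fin m' → ℂ) => u (g v₀ (io s q.1) q.2))
      (f := fun a : ℂ => (a, b₀)) (x := a₀) h1 h2
  have hNe : ∀ᶠ a in 𝓝 a₀, g v₀ (io s a) b₀ ∈ N := hc.eventually (hch.1.mem_nhds hp)
  have hne' : ∀ᶠ a in 𝓝 a₀, u (g v₀ (io s a) b₀) ≠ 0 := han.continuousAt.eventually_ne hne
  obtain ⟨W, hWsub, hWo, hW0⟩ := mem_nhds_iff.1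
    ((hNe.and hne').and ((eventually_not_node z b₀ s a₀).and han.eventually_analyticAt))
  refine ⟨han, H599.injOn_deriv_ne_zero hWo
      (fun a ha => (hWsub ha).2.2.differentiableAt.differentiableWithinAt) ?_ hW0⟩
  intro a ha a' ha' e
  have hh := hWsub ha
  have hh' := hWsub ha'
  have hp : g v₀ (io s a) b₀ = g v₀ (io s a') b₀ := by
    refine chart_inj_fst hch hh.1.1 hh'.1.1 ?_ e hh'.1.2
    rw [hN.proj b₀ hb₀, hN.proj b₀ hb₀]
  rcases (hN.ident b₀ hb₀ _ _ _ _).1 hp with ⟨-, h1⟩ | ⟨e', s', ⟨-, h1⟩, -, h2⟩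
  · exact io_inj s h1
  · have h3 : a = a₀ := by
      by_contra hne'
      exact hh.2.1 hne' (e', s') h1
    have h4 : a' = a₀ := by
      by_contra hne'
      exact hh'.2.1 hne' (e', !s') h2
    rw [h3, h4]

theorem exists_pos_fst [Finite E] {C : Fam L m} {U : Set (Fin m' → ℂ)} (hU : IsOpen U)
    {φ : (Fin m' → ℂ) → Fin m → ℂ} {h : (E × Bool) ⊕ L → V}
    {z : (E × Bool) ⊕ L → (Fin m' → ℂ) → OnePoint ℂ}
    {g : V → OnePoint ℂ → (Fin m' → ℂ) → C.X} (hN : Norm C U φ h z g)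
    {N : Set C.X} {u v : C.X → ℂ} {t : (Fin m → ℂ) → ℂ} (hch : IsChart C.π C.hol N u v t)
    {β : (Fin m' → ℂ) → C.X} {b₀ : Fin m' → ℂ} (hb₀ : b₀ ∈ U) (hβN : ∀ᶠ b in 𝓝 b₀, β b ∈ N)
    (hβπ : ∀ᶠ b in 𝓝 b₀, C.π (β b) = φ b) (hβu : AnalyticAt ℂ (fun b => u (β b)) b₀)
    (hne : u (β b₀) ≠ 0) :
    ∃ (v₀ : V) (s : Bool) (k : (Fin m' → ℂ) → ℂ), AnalyticAt ℂ k b₀ ∧
      ∀ᶠ b in 𝓝 b₀, β b = g v₀ (io s (k b)) b := by
  obtain ⟨v₀, w₀, e₀⟩ := hN.onto b₀ hb₀ (β b₀) hβπ.self_of_nhds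
  obtain ⟨s, a₀, hs, hs0⟩ := exists_io w₀
  subst hs
  have hA := H724.isAmb_of_isChart hch
  set G : ℂ × (Fin m' → ℂ) → C.X := fun q => g v₀ (io s q.1) q.2 with hG
  have hGc : ContinuousAt G (a₀, b₀) := continuousAt_g hU hN hb₀ v₀ s a₀
  have hG0 : G (a₀, b₀) = β b₀ := e₀
  have hN0 : β b₀ ∈ N := hβN.self_of_nhds
  have hGN : ∀ᶠ q in 𝓝 (a₀, b₀), G q ∈ N := by
    refine hGc.eventually (hch.1.mem_nhds ?_)
    rw [hG0]
    exact hN0
  have hGu : AnalyticAt ℂ (fun q => u (G q)) (a₀, b₀) := by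
    refine hol1_io hs0 (hN.hol b₀ hb₀ v₀ (io s a₀) u ?_)
    rw [e₀]
    exact H724.amb_hol_fst hA hN0
  have hGne : ∀ᶠ q in 𝓝 (a₀, b₀), u (G q) ≠ 0 := by
    refine hGu.continuousAt.eventually_ne ?_
    rw [hG0]
    exact hne
  have hder : deriv (fun a => u (G (a, b₀))) a₀ ≠ 0 :=
    (deriv_ne hN hch hb₀ hs0 (by rw [e₀]; exact hN0) (by rw [e₀]; exact hne)).2
  obtain ⟨k, hk, hk0, hkev⟩ := exists_implicit (f := fun q => u (G q)) hGu hder hβu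
    (by rw [hG0])
  refine ⟨v₀, s, k, hk, ?_⟩
  have hkc : Tendsto (fun b => (k b, b)) (𝓝 b₀) (𝓝 (a₀, b₀)) := by
    have h1 : ContinuousAt (fun b => (k b, b)) b₀ := hk.continuousAt.prodMk continuousAt_id
    have h2 : Tendsto (fun b => (k b, b)) (𝓝 b₀) (𝓝 (k b₀, b₀)) := h1
    rwa [hk0] at h2
  filter_upwards [hkev, hkc.eventually hGN, hkc.eventually hGne, hβN, hβπ, hU.mem_nhds hb₀]
    with b h1 h2 h3 h4 h5 h6
  symm
  refine chart_inj_fst hch h2 h4 ?_ h1 (h1 ▸ h3)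
  rw [h5]
  exact hN.proj b h6 _ _

/-- **A holomorphic section that avoids the nodes of a chart is an analytic position on one line of
the normalisation.** -/
theorem exists_pos_chart [Finite E] {C : Fam L m} {U : Set (Fin m' → ℂ)} (hU : IsOpen U)
    {φ : (Fin m' → ℂ) → Fin m → ℂ} {h : (E × Bool) ⊕ L → V}
    {z : (E × Bool) ⊕ L → (Fin m' → ℂ) → OnePoint ℂ}
    {g : V → OnePoint ℂ → (Fin m' → ℂ) → C.X} (hN : Norm C U φ h z g)
    {N : Set C.X} {u v : C.X → ℂ} {t : (Fin m → ℂ) → ℂ} (hch : IsChart C.π C.hol N u v t)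
    {β : (Fin m' → ℂ) → C.X} {b₀ : Fin m' → ℂ} (hb₀ : b₀ ∈ U) (hβN : ∀ᶠ b in 𝓝 b₀, β b ∈ N)
    (hβπ : ∀ᶠ b in 𝓝 b₀, C.π (β b) = φ b) (hβu : AnalyticAt ℂ (fun b => u (β b)) b₀)
    (hβv : AnalyticAt ℂ (fun b => v (β b)) b₀) (hne : u (β b₀) ≠ 0 ∨ v (β b₀) ≠ 0) :
    ∃ (v₀ : V) (s : Bool) (k : (Fin m' → ℂ) → ℂ), AnalyticAt ℂ k b₀ ∧
      ∀ᶠ b in 𝓝 b₀, β b = g v₀ (io s (k b)) b := by
  rcases hne with hne | hne
  · exact exists_pos_fst hU hN hch hb₀ hβN hβπ hβu hne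
  · exact exists_pos_fst hU hN (isChart_swap hch) hb₀ hβN hβπ hβv hne

/-- **A point of a chart that is not a node of the normalisation is not a node of the chart.** -/
theorem ne_zero_of_not_node [Finite V] {C : Fam L m} [T2Space C.X] {U : Set (Fin m' → ℂ)}
    {φ : (Fin m' → ℂ) → Fin m → ℂ} {h : (E × Bool) ⊕ L → V}
    {z : (E × Bool) ⊕ L → (Fin m' → ℂ) → OnePoint ℂ}
    {g : V → OnePoint ℂ → (Fin m' → ℂ) → C.X} (hN : Norm C U φ h z g)
    {N : Set C.X} {u v : C.X → ℂ} {t : (Fin m → ℂ) → ℂ} (hch : IsChart C.π C.hol N u v t)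
    {b₀ : Fin m' → ℂ} (hb₀ : b₀ ∈ U) {p : C.X} (hpN : p ∈ N) (hπ : C.π p = φ b₀)
    (hnode : ∀ y : E × Bool, p ≠ g (h (inl y)) (z (inl y) b₀) b₀) : u p ≠ 0 ∨ v p ≠ 0 := by
  classical
  by_contra hcon
  push Not at hcon
  obtain ⟨hu0, hv0⟩ := hcon
  obtain ⟨v₀, w₀, e₀⟩ := hN.onto b₀ hb₀ p hπ
  obtain ⟨s, a₀, hs, hs0⟩ := exists_io w₀
  subst hs
  have hA := H724.isAmb_of_isChart hch
  have hcont : ∀ v', Continuous fun w => g v' w b₀ := fun v' =>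
    (hN.cont v').comp_continuous (continuous_id.prodMk continuous_const)
      fun w => ⟨mem_univ _, hb₀⟩
  have key : ∀ P : C.X → Prop, (∃ᶠ q in 𝓝[C.fib (φ b₀)] p, P q) →
      ∃ᶠ a in 𝓝 a₀, P (g v₀ (io s a) b₀) := by
    intro P hP
    by_contra hno
    rw [not_frequently] at hno
    have hno' : ∀ᶠ w in 𝓝 (io s a₀), ¬ P (g v₀ w b₀) := by
      rw [← (io_emb s).map_nhds_eq a₀]
      exact hno
    obtain ⟨O, hOsub, hOo, hO0⟩ := mem_nhds_iff.1 hno'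
    set K : V → Set (OnePoint ℂ) := fun v' => if v' = v₀ then Oᶜ else univ with hK
    have hKc : ∀ v', IsCompact (K v') := by
      intro v'
      by_cases hv' : v' = v₀
      · rw [hK]
        simp only [hv', if_true]
        exact hOo.isClosed_compl.isCompact
      · rw [hK]
        simp only [hv', if_false]
        exact isCompact_univ
    have hcl : IsClosed (⋃ v', (fun w => g v' w b₀) '' K v') :=
      isClosed_iUnion_of_finite fun v' => ((hKc v').image (hcont v')).isClosed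
    have hpn : p ∉ ⋃ v', (fun w => g v' w b₀) '' K v' := by
      rw [mem_iUnion]
      rintro ⟨v', w, hw, hpw⟩
      have hpw' : g v' w b₀ = g v₀ (io s a₀) b₀ := by rw [e₀]; exact hpw
      rcases (hN.ident b₀ hb₀ _ _ _ _).1 hpw' with ⟨h1, h2⟩ | ⟨e', s', -, h1, h2⟩
      · rw [h1, h2] at hw
        simp only [hK, if_true] at hw
        exact hw hO0
      · exact hnode (e', !s') (by rw [← h1, ← h2, e₀])
    have hev : ∀ᶠ q in 𝓝[C.fib (φ b₀)] p, ¬ P q := by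
      have h1 : ∀ᶠ q in 𝓝[C.fib (φ b₀)] p, q ∉ ⋃ v', (fun w => g v' w b₀) '' K v' :=
        (hcl.isOpen_compl.mem_nhds hpn : _ ∈ 𝓝 p) |> fun hh => mem_nhdsWithin_of_mem_nhds hh
      filter_upwards [h1, self_mem_nhdsWithin] with q hq hqf
      obtain ⟨v', w, hw⟩ := hN.onto b₀ hb₀ q hqf
      have hwK : w ∉ K v' := fun hw' => hq (mem_iUnion.2 ⟨v', w, hw', hw⟩)
      by_cases hv' : v' = v₀
      · subst hv'
        simp only [hK, if_true, mem_compl_iff, not_not] at hwK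
        rw [← hw]
        exact hOsub hwK
      · simp only [hK, hv', if_false] at hwK
        exact absurd (mem_univ _) hwK
    exact hP hev
  obtain ⟨f1, f2⟩ := H724.exists_branch hch hpN hπ hu0 hv0
  have k1 := key _ f1
  have k2 := key _ f2
  have hGu : AnalyticAt ℂ (fun a => u (g v₀ (io s a) b₀)) a₀ := by
    have h1 := hol1_io hs0 (hN.hol b₀ hb₀ v₀ (io s a₀) u (by
      rw [e₀]
      exact H724.amb_hol_fst hA hpN))
    have h2 : AnalyticAt ℂ (fun a : ℂ => (a, b₀)) a₀ := analyticAt_id.prod analyticAt_const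
    exact AnalyticAt.comp (g := fun q : ℂ × (Fin m' → ℂ) => u (g v₀ (io s q.1) q.2))
      (f := fun a : ℂ => (a, b₀)) (x := a₀) h1 h2
  have ht : t (φ b₀) = 0 := by
    have := H724.chart_eq hch hpN
    rw [hu0, zero_mul, hπ] at this
    exact this.symm
  have hGN : ∀ᶠ a in 𝓝 a₀, g v₀ (io s a) b₀ ∈ N := by
    have h1 : ContinuousAt (fun a => g v₀ (io s a) b₀) a₀ :=
      ((hcont v₀).comp (io_cont s)).continuousAt
    refine h1.eventually (hch.1.mem_nhds ?_)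
    change g v₀ (io s a₀) b₀ ∈ N
    rw [e₀]
    exact hpN
  have hprod : ∀ᶠ a in 𝓝 a₀, u (g v₀ (io s a) b₀) * v (g v₀ (io s a) b₀) = 0 := by
    filter_upwards [hGN] with a ha
    rw [H724.chart_eq hch ha, hN.proj b₀ hb₀, ht]
  rcases hGu.eventually_eq_zero_or_eventually_ne_zero with h1 | h1
  · obtain ⟨a, ha, hb⟩ := (k1.and_eventually h1).exists
    exact ha.2.2 hb
  · have h2 : ∀ᶠ a in 𝓝 a₀, v (g v₀ (io s a) b₀) = 0 := by
      have h3 : ∀ᶠ a in 𝓝[≠] a₀, v (g v₀ (io s a) b₀) = 0 := by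
        filter_upwards [h1, hprod.filter_mono nhdsWithin_le_nhds] with a ha hb
        exact (mul_eq_zero.1 hb).resolve_left ha
      rw [eventually_nhdsWithin_iff] at h3
      filter_upwards [h3] with a ha
      by_cases haa : a = a₀
      · rw [haa, e₀]
        exact hv0
      · exact ha haa
    obtain ⟨a, ha, hb⟩ := (k2.and_eventually h2).exists
    exact ha.2.2 hb

theorem unique_fst [Finite E] {C : Fam L m} {U : Set (Fin m' → ℂ)}
    {φ : (Fin m' → ℂ) → Fin m → ℂ} {h : (E × Bool) ⊕ L → V}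
    {z : (E × Bool) ⊕ L → (Fin m' → ℂ) → OnePoint ℂ}
    {g : V → OnePoint ℂ → (Fin m' → ℂ) → C.X} (hN : Norm C U φ h z g)
    {N : Set C.X} {u v : C.X → ℂ} {t : (Fin m → ℂ) → ℂ} (hch : IsChart C.π C.hol N u v t)
    {b₀ : Fin m' → ℂ} (hb₀ : b₀ ∈ U) {p : C.X} (hpN : p ∈ N) (hne : u p ≠ 0)
    {v₁ v₂ : V} {w₁ w₂ : OnePoint ℂ} (h1 : g v₁ w₁ b₀ = p) (h2 : g v₂ w₂ b₀ = p) :
    v₁ = v₂ ∧ w₁ = w₂ := by
  obtain ⟨s₁, a₁, rfl, hs₁⟩ := exists_io w₁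
  obtain ⟨s₂, a₂, rfl, hs₂⟩ := exists_io w₂
  have hcont : ∀ v' s a, ContinuousAt (fun a => g v' (io s a) b₀) a := fun v' s a =>
    (((hN.cont v').comp_continuous (continuous_id.prodMk continuous_const)
      fun w => ⟨mem_univ _, hb₀⟩ : Continuous fun w => g v' w b₀).comp (io_cont s)).continuousAt
  have key : ∀ (v' : V) (s : Bool) (a : ℂ), (s = true → a = 0) → g v' (io s a) b₀ = p →
      ∀ P : ℂ → Prop, (∀ᶠ a' in 𝓝 a, P a') → ∀ᶠ x in 𝓝 (u p), ∃ a', P a' ∧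
        g v' (io s a') b₀ ∈ N ∧ u (g v' (io s a') b₀) = x ∧
          (a' ≠ a → ∀ y : E × Bool, io s a' ≠ z (inl y) b₀) := by
    intro v' s a hs e P hP
    obtain ⟨k1, k2⟩ := deriv_ne hN hch hb₀ hs (v₀ := v') (by rw [e]; exact hpN)
      (by rw [e]; exact hne)
    have hm : map (fun a => u (g v' (io s a) b₀)) (𝓝 a) = 𝓝 (u p) := by
      have := k1.hasStrictDerivAt.map_nhds_eq k2
      rwa [e] at this
    have hNe : ∀ᶠ a' in 𝓝 a, g v' (io s a') b₀ ∈ N := by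
      refine (hcont v' s a).eventually (hch.1.mem_nhds ?_)
      change g v' (io s a) b₀ ∈ N
      rw [e]
      exact hpN
    have h3 := image_mem_map (m := fun a => u (g v' (io s a) b₀))
      (hP.and (hNe.and (eventually_not_node z b₀ s a)))
    rw [hm] at h3
    filter_upwards [h3] with x hx
    obtain ⟨a', ⟨q1, q2, q3⟩, q4⟩ := hx
    exact ⟨a', q1, q2, q4, q3⟩
  have hux : ∀ᶠ x in 𝓝[≠] (u p), x ≠ 0 :=
    (continuousAt_id.eventually_ne hne).filter_mono nhdsWithin_le_nhds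
  -- common points
  have main : ∀ P₁ P₂ : ℂ → Prop, (∀ᶠ a in 𝓝 a₁, P₁ a) → (∀ᶠ a in 𝓝 a₂, P₂ a) →
      ∃ a a', P₁ a ∧ P₂ a' ∧ v₁ = v₂ ∧ io s₁ a = io s₂ a' := by
    intro P₁ P₂ hP₁ hP₂
    have c1 := (key v₁ s₁ a₁ hs₁ h1 P₁ hP₁).filter_mono
      (nhdsWithin_le_nhds (s := {u p}ᶜ))
    have c2 := (key v₂ s₂ a₂ hs₂ h2 P₂ hP₂).filter_mono
      (nhdsWithin_le_nhds (s := {u p}ᶜ))
    obtain ⟨x, ⟨⟨⟨a, p1, p2, p3, p4⟩, ⟨a', q1, q2, q3, q4⟩⟩, hx0⟩, hxu⟩ :=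
      (((c1.and c2).and hux).and self_mem_nhdsWithin).exists
    have ha : a ≠ a₁ := by
      rintro rfl
      rw [h1] at p3
      exact hxu p3.symm
    have heq : g v₁ (io s₁ a) b₀ = g v₂ (io s₂ a') b₀ := by
      refine chart_inj_fst hch p2 q2 ?_ (p3.trans q3.symm) (by rw [q3]; exact hx0)
      rw [hN.proj b₀ hb₀, hN.proj b₀ hb₀]
    rcases (hN.ident b₀ hb₀ _ _ _ _).1 heq with hh | ⟨e', s', ⟨-, hh⟩, -⟩
    · exact ⟨a, a', p1, q1, hh.1, hh.2⟩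
    · exact absurd hh (p4 ha (e', s'))
  obtain ⟨-, -, -, -, hv, -⟩ := main (fun _ => True) (fun _ => True)
    (Eventually.of_forall fun _ => trivial) (Eventually.of_forall fun _ => trivial)
  refine ⟨hv, ?_⟩
  by_contra hw
  obtain ⟨O₁, O₂, ho1, ho2, hm1, hm2, hd⟩ := t2_separation hw
  obtain ⟨a, a', k1, k2, -, k3⟩ := main (fun a => io s₁ a ∈ O₁) (fun a => io s₂ a ∈ O₂)
    ((io_cont s₁).continuousAt.eventually (ho1.mem_nhds hm1))
    ((io_cont s₂).continuousAt.eventually (ho2.mem_nhds hm2))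
  exact disjoint_left.1 hd k1 (k3 ▸ k2)

/-- **A point of a chart that is not a node of the chart has exactly one position** (in particular
it is not a node of the normalisation, if the positions of the half-edges are distinct). -/
theorem unique_pos [Finite E] {C : Fam L m} {U : Set (Fin m' → ℂ)}
    {φ : (Fin m' → ℂ) → Fin m → ℂ} {h : (E × Bool) ⊕ L → V}
    {z : (E × Bool) ⊕ L → (Fin m' → ℂ) → OnePoint ℂ}
    {g : V → OnePoint ℂ → (Fin m' → ℂ) → C.X} (hN : Norm C U φ h z g)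
    {N : Set C.X} {u v : C.X → ℂ} {t : (Fin m → ℂ) → ℂ} (hch : IsChart C.π C.hol N u v t)
    {b₀ : Fin m' → ℂ} (hb₀ : b₀ ∈ U) {p : C.X} (hpN : p ∈ N) (hne : u p ≠ 0 ∨ v p ≠ 0)
    {v₁ v₂ : V} {w₁ w₂ : OnePoint ℂ} (h1 : g v₁ w₁ b₀ = p) (h2 : g v₂ w₂ b₀ = p) :
    v₁ = v₂ ∧ w₁ = w₂ := by
  rcases hne with hne | hne
  · exact unique_fst hN hch hb₀ hpN hne h1 h2
  · exact unique_fst hN (isChart_swap hch) hb₀ hpN hne h1 h2

/-- A point of a chart that is not a node of the chart is not a node of the normalisation. -/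
theorem not_node_of_ne_zero [Finite E] {C : Fam L m} {U : Set (Fin m' → ℂ)}
    {φ : (Fin m' → ℂ) → Fin m → ℂ} {h : (E × Bool) ⊕ L → V}
    {z : (E × Bool) ⊕ L → (Fin m' → ℂ) → OnePoint ℂ}
    {g : V → OnePoint ℂ → (Fin m' → ℂ) → C.X} (hN : Norm C U φ h z g)
    {N : Set C.X} {u v : C.X → ℂ} {t : (Fin m → ℂ) → ℂ} (hch : IsChart C.π C.hol N u v t)
    {b₀ : Fin m' → ℂ} (hb₀ : b₀ ∈ U)
    (hz : ∀ y y' : E × Bool, h (inl y) = h (inl y') → z (inl y) b₀ = z (inl y') b₀ → y = y')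
    {p : C.X} (hpN : p ∈ N) (hne : u p ≠ 0 ∨ v p ≠ 0) (y : E × Bool) :
    p ≠ g (h (inl y)) (z (inl y) b₀) b₀ := by
  intro e
  have e' : g (h (inl (y.1, !y.2))) (z (inl (y.1, !y.2)) b₀) b₀ = p := by
    rw [e]
    symm
    exact (hN.ident b₀ hb₀ _ _ _ _).2 (Or.inr ⟨y.1, y.2, ⟨rfl, rfl⟩, rfl, rfl⟩)
  obtain ⟨k1, k2⟩ := unique_pos hN hch hb₀ hpN hne e.symm e'
  have k3 := hz _ _ k1 k2
  have k4 : y.2 = !y.2 := congrArg Prod.snd k3
  cases hy : y.2 <;> simp [hy] at k4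

/-- **The position of a holomorphic section that avoids the nodes, local form.** -/
theorem exists_pos [Finite V] [Finite E] {C : Fam L m} [T2Space C.X] {U : Set (Fin m' → ℂ)}
    (hU : IsOpen U) {φ : (Fin m' → ℂ) → Fin m → ℂ} {h : (E × Bool) ⊕ L → V}
    {z : (E × Bool) ⊕ L → (Fin m' → ℂ) → OnePoint ℂ}
    {g : V → OnePoint ℂ → (Fin m' → ℂ) → C.X} (hN : Norm C U φ h z g)
    {N : Set C.X} {u v : C.X → ℂ} {t : (Fin m → ℂ) → ℂ} (hch : IsChart C.π C.hol N u v t)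
    {β : (Fin m' → ℂ) → C.X} {b₀ : Fin m' → ℂ} (hb₀ : b₀ ∈ U) (hβN : ∀ᶠ b in 𝓝 b₀, β b ∈ N)
    (hβπ : ∀ᶠ b in 𝓝 b₀, C.π (β b) = φ b) (hβu : AnalyticAt ℂ (fun b => u (β b)) b₀)
    (hβv : AnalyticAt ℂ (fun b => v (β b)) b₀)
    (hnode : ∀ y : E × Bool, β b₀ ≠ g (h (inl y)) (z (inl y) b₀) b₀) :
    ∃ (v₀ : V) (s : Bool) (k : (Fin m' → ℂ) → ℂ), AnalyticAt ℂ k b₀ ∧
      ∀ᶠ b in 𝓝 b₀, β b = g v₀ (io s (k b)) b :=
  exists_pos_chart hU hN hch hb₀ hβN hβπ hβu hβv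
    (ne_zero_of_not_node hN hch hb₀ hβN.self_of_nhds hβπ.self_of_nhds hnode)

/-- **The position of a holomorphic section that avoids the nodes, global form**: over a connected
base the section is on one line of the normalisation, and its position is analytic. -/
theorem exists_pos_global [Finite V] [Finite E] [Nonempty V] {C : Fam L m} [T2Space C.X]
    {U : Set (Fin m' → ℂ)} (hU : IsOpen U) (hUc : IsPreconnected U)
    {φ : (Fin m' → ℂ) → Fin m → ℂ} {h : (E × Bool) ⊕ L → V}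
    {z : (E × Bool) ⊕ L → (Fin m' → ℂ) → OnePoint ℂ}
    {g : V → OnePoint ℂ → (Fin m' → ℂ) → C.X} (hN : Norm C U φ h z g)
    {β : (Fin m' → ℂ) → C.X} (hβπ : ∀ b ∈ U, C.π (β b) = φ b)
    (hβ : ∀ b₀ ∈ U, ∃ (N : Set C.X) (u v : C.X → ℂ) (t : (Fin m → ℂ) → ℂ),
      IsChart C.π C.hol N u v t ∧ (∀ᶠ b in 𝓝 b₀, β b ∈ N) ∧
        AnalyticAt ℂ (fun b => u (β b)) b₀ ∧ AnalyticAt ℂ (fun b => v (β b)) b₀)
    (hnode : ∀ b ∈ U, ∀ y : E × Bool, β b ≠ g (h (inl y)) (z (inl y) b) b) :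
    ∃ (v₀ : V) (w : (Fin m' → ℂ) → OnePoint ℂ), ∀ b ∈ U, β b = g v₀ (w b) b ∧
      (∀ v' w', g v' w' b = β b → v' = v₀ ∧ w' = w b) ∧
      ∃ k : (Fin m' → ℂ) → ℂ, AnalyticAt ℂ k b ∧
        ((∀ᶠ b' in 𝓝 b, w b' = (k b' : ℂ)) ∨ ∀ᶠ b' in 𝓝 b, w b' = inf (k b')) := by
  classical
  have huniq : ∀ b ∈ U, ∀ v₁ w₁ v₂ w₂, g v₁ w₁ b = β b → g v₂ w₂ b = β b → v₁ = v₂ ∧ w₁ = w₂ := by
    intro b hb v₁ w₁ v₂ w₂ h1 h2
    rcases (hN.ident b hb _ _ _ _).1 (h1.trans h2.symm) with hh | ⟨e', s', ⟨h3, h4⟩, -⟩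
    · exact hh
    · exact absurd (by rw [← h3, ← h4, h1]) (hnode b hb (e', s'))
  have hex : ∀ b, ∃ vw : V × OnePoint ℂ, b ∈ U → g vw.1 vw.2 b = β b := by
    intro b
    by_cases hb : b ∈ U
    · obtain ⟨v', w', e⟩ := hN.onto b hb (β b) (hβπ b hb)
      exact ⟨(v', w'), fun _ => e⟩
    · exact ⟨(Classical.arbitrary V, OnePoint.infty), fun hb' => absurd hb' hb⟩
  choose σ hσ using hex
  have hloc : ∀ b₀ ∈ U, ∃ (v₀ : V) (s : Bool) (k : (Fin m' → ℂ) → ℂ), AnalyticAt ℂ k b₀ ∧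
      ∀ᶠ b in 𝓝 b₀, σ b = (v₀, io s (k b)) := by
    intro b₀ hb₀
    obtain ⟨N, u, v, t, hch, hβN, hβu, hβv⟩ := hβ b₀ hb₀
    obtain ⟨v₀, s, k, hk, hev⟩ := exists_pos hU hN hch hb₀ hβN
      ((hU.eventually_mem hb₀).mono fun b hb => hβπ b hb) hβu hβv (hnode b₀ hb₀)
    refine ⟨v₀, s, k, hk, ?_⟩
    filter_upwards [hev, hU.eventually_mem hb₀] with b h1 h2
    have h3 := huniq b h2 _ _ _ _ (hσ b h2) h1.symm
    exact Prod.ext h3.1 h3.2
  rcases U.eq_empty_or_nonempty with rfl | ⟨b₁, hb₁⟩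
  · exact ⟨Classical.arbitrary V, fun _ => OnePoint.infty, fun b hb => absurd hb (notMem_empty b)⟩
  refine ⟨(σ b₁).1, fun b => (σ b).2, fun b hb => ?_⟩
  have hconst : (σ b).1 = (σ b₁).1 := by
    let : TopologicalSpace V := ⊥
    have : DiscreteTopology V := ⟨rfl⟩
    refine hUc.constant (f := fun b => (σ b).1) ?_ hb hb₁
    intro b₀ hb₀
    obtain ⟨v₀, s, k, -, hev⟩ := hloc b₀ hb₀
    have h1 : (fun _ => v₀) =ᶠ[𝓝 b₀] fun b => (σ b).1 := by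
      filter_upwards [hev] with b' hb'
      rw [hb']
    exact (continuousAt_const.congr h1).continuousWithinAt
  refine ⟨by rw [← hconst]; exact (hσ b hb).symm, fun v' w' e => ?_, ?_⟩
  · have := huniq b hb _ _ _ _ e (hσ b hb)
    exact ⟨this.1.trans hconst, this.2⟩
  · obtain ⟨v₀, s, k, hk, hev⟩ := hloc b hb
    refine ⟨k, hk, ?_⟩
    cases s
    · left
      filter_upwards [hev] with b' hb'
      rw [hb']
      rfl
    · right
      filter_upwards [hev] with b' hb'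
      rw [hb']
      rfl

/-- **Row FAM-TT-POS, literal form**: `β b` is the point of the chart `N` of the fibre over `φ b`
with the coordinates `t₀ (φ b)`, `t₁ (φ b)`. -/
theorem exists_pos_row [Finite V] [Finite E] [Nonempty V] {C : Fam L m} [T2Space C.X]
    {U : Set (Fin m' → ℂ)} (hU : IsOpen U) (hUc : IsPreconnected U)
    {φ : (Fin m' → ℂ) → Fin m → ℂ} {h : (E × Bool) ⊕ L → V}
    {z : (E × Bool) ⊕ L → (Fin m' → ℂ) → OnePoint ℂ}
    {g : V → OnePoint ℂ → (Fin m' → ℂ) → C.X} (hN : Norm C U φ h z g)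
    {N : Set C.X} {u v : C.X → ℂ} {t : (Fin m → ℂ) → ℂ} (hch : IsChart C.π C.hol N u v t)
    {t₀ t₁ : (Fin m → ℂ) → ℂ} (ht₀ : ∀ b ∈ U, AnalyticAt ℂ t₀ (φ b))
    (ht₁ : ∀ b ∈ U, AnalyticAt ℂ t₁ (φ b)) {β : (Fin m' → ℂ) → C.X}
    (hβN : ∀ b ∈ U, β b ∈ N) (hβπ : ∀ b ∈ U, C.π (β b) = φ b)
    (hβu : ∀ b ∈ U, u (β b) = t₀ (φ b)) (hβv : ∀ b ∈ U, v (β b) = t₁ (φ b))
    (hnode : ∀ b ∈ U, ∀ y : E × Bool, β b ≠ g (h (inl y)) (z (inl y) b) b) :
    ∃ (v₀ : V) (w : (Fin m' → ℂ) → OnePoint ℂ), ∀ b ∈ U, β b = g v₀ (w b) b ∧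
      (∀ v' w', g v' w' b = β b → v' = v₀ ∧ w' = w b) ∧
      ∃ k : (Fin m' → ℂ) → ℂ, AnalyticAt ℂ k b ∧
        ((∀ᶠ b' in 𝓝 b, w b' = (k b' : ℂ)) ∨ ∀ᶠ b' in 𝓝 b, w b' = inf (k b')) := by
  refine exists_pos_global hU hUc hN hβπ (fun b₀ hb₀ => ⟨N, u, v, t, hch,
    (hU.eventually_mem hb₀).mono hβN, ?_, ?_⟩) hnode
  · have h1 : AnalyticAt ℂ (fun b => t₀ (φ b)) b₀ :=
      AnalyticAt.comp (g := t₀) (f := φ) (x := b₀) (ht₀ b₀ hb₀) (hN.an b₀ hb₀)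
    exact h1.congr ((hU.eventually_mem hb₀).mono fun b hb => (hβu b hb).symm)
  · have h1 : AnalyticAt ℂ (fun b => t₁ (φ b)) b₀ :=
      AnalyticAt.comp (g := t₁) (f := φ) (x := b₀) (ht₁ b₀ hb₀) (hN.an b₀ hb₀)
    exact h1.congr ((hU.eventually_mem hb₀).mono fun b hb => (hβv b hb).symm)

end Vale.Agent.P273.H303

end
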